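import Vale.Agent.P371.Weak.Trace

/-!
P371: the sharp Lieb-Thirring constant in one dimension for `1/2 < γ < 3/2` and every matrix size.
-/

namespace Vale.Agent.Results.P371.SharpConstant

open MeasureTheory Vale.Agent.P371
open scoped ComplexConjugate ComplexOrder

/-- `L_γ(m) = L^{(1)}_γ` for every `1/2 < γ < 3/2` and every `m ≥ 1`, attained, with the
variational form of the bound over the whole Sobolev space `H¹`, the form boundedness of every
potential, and the same constant for the trace of the negative part counted with multiplicity. -/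
theorem result :
    ∀ γ : ℝ, 1 / 2 < γ → γ < 3 / 2 → ∀ m : ℕ, 1 ≤ m →
      IsGreatest (Weak.wLtRatiosAt γ m)
        (2 * ((γ - 1 / 2) / (γ + 1 / 2)) ^ (γ - 1 / 2) * ltClassical γ) ∧
      (∀ W : ℝ → Matrix (Fin m) (Fin m) ℂ, IsMPotentialAt γ W →
        ∀ (N : ℕ) (f f' : Fin N → ℝ → Fin m → ℂ), (∀ i, Weak.IsWH1V (f i) (f' i)) →
        (∀ i j, ∫ x, ∑ a, conj (f i x a) * f j x a = if i = j then 1 else 0) →
        (∀ i j, Integrable (fun x => ∑ a, conj (f i x a) * (Matrix.mulVec (W x) (f j x)) a)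
          volume) ∧
        ((All.formMat W f f').PosDef →
        trPowAt γ (All.formMat W f f') ≤
          2 * ((γ - 1 / 2) / (γ + 1 / 2)) ^ (γ - 1 / 2) * ltClassical γ *
            ∫ x, trPowAt (γ + 1 / 2) (W x))) ∧
      (∀ W : ℝ → Matrix (Fin m) (Fin m) ℂ, IsMPotentialAt γ W →
        (∀ ε : ℝ, 0 < ε → ∃ C : ℝ, ∀ f f' : ℝ → Fin m → ℂ, Weak.IsWH1V f f' →
          Integrable (fun x => ∑ a, conj (f x a) * (Matrix.mulVec (W x) (f x)) a) volume ∧
          (∫ x, ∑ a, conj (f x a) * (Matrix.mulVec (W x) (f x)) a).re ≤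
            ε * (∫ x, ∑ a, ‖f' x a‖ ^ 2) + C * ∫ x, ∑ a, ‖f x a‖ ^ 2) ∧
        (∀ l : ℝ, l < 0 → FiniteDimensional ℂ (Weak.eigSpace W l)) ∧
        Summable fun l : {l : ℝ // l < 0} =>
          (Module.finrank ℂ (Weak.eigSpace W l) : ℝ) * |(l : ℝ)| ^ γ) ∧
      IsGreatest {r | ∃ W : ℝ → Matrix (Fin m) (Fin m) ℂ, IsMPotentialAt γ W ∧
          0 < (∫ x, trPowAt (γ + 1 / 2) (W x)) ∧
          r = Weak.negTrace γ W / ∫ x, trPowAt (γ + 1 / 2) (W x)}
        (2 * ((γ - 1 / 2) / (γ + 1 / 2)) ^ (γ - 1 / 2) * ltClassical γ) :=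
  fun _ h0 h1 _ hm => ⟨Weak.sharp_constant h0 h1 hm,
    fun _ hW _ _ _ hf horth =>
      ⟨Weak.form_integrable h0 hW hf, Weak.form_bound h0 h1 hW hf horth⟩,
    fun _ hW => ⟨fun _ hε => Weak.form_bounded h0 hW hε,
      fun _ hl => Weak.eigSpace_finite h0 h1 hW hl, (Weak.negTrace_bound h0 h1 hW).1⟩,
    Weak.trace_constant h0 h1 hm⟩

end Vale.Agent.Results.P371.SharpConstant
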